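import Vale.Agent.P267H.HA

/-! P267, the first Betti number of the finite covers: local lifts. -/

open scoped Manifold ContDiff Topology
open Filter Metric Set

noncomputable section

namespace Vale.Agent.P267

set_option linter.unusedSectionVars false

variable {X M : Type} [TopologicalSpace X] [ChartedSpace C2 X] [T2Space X] [CompactSpace X]
  [IsManifold 𝓘(ℂ, C2) ω X] [TopologicalSpace M] [ChartedSpace C2 M] [T2Space M]
  [IsManifold 𝓘(ℂ, C2) ω M] [ConnectedSpace M] {π : M → X} {g : M ≃ₜ M} {t : M → ℝ} {N m : ℕ}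
  {L : Fin m → M → M → ℂ} {c : (M → M → ℂ) → Fin m → ℤ}

variable {Y : Type} [TopologicalSpace Y] [ChartedSpace C2 Y] {p1 : M → Y}

theorem IsCyclic.lifts {G : M ≃ₜ M} (h1 : IsCyclic p1 G) : ∃ l : Y → Y → M,
    ∀ y, ∀ᶠ z in 𝓝 y, p1 (l y z) = z ∧ ContinuousAt (l y) z := by
  have key : ∀ y, ∃ l : Y → M, ∀ᶠ z in 𝓝 y, p1 (l z) = z ∧ ContinuousAt l z := fun y => by
    obtain ⟨p, rfl⟩ := h1.surj y
    obtain ⟨e, he, rfl⟩ := h1.loc.isLocalHomeomorph p
    refine ⟨e.symm, ?_⟩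
    filter_upwards [e.open_target.mem_nhds (e.map_source he)] with z hz
    exact ⟨e.right_inv hz, e.continuousAt_symm hz⟩
  choose l hl using key
  exact ⟨l, hl⟩

/-- Two continuous lifts differ by a locally constant height. -/
theorem IsCover.lift_const (h : IsCover π g t) (h1 : IsCyclic p1 (g ^ N)) {Z : Type}
    [TopologicalSpace Z] {a b : Z → M} {z : Z} (ha : ContinuousAt a z) (hb : ContinuousAt b z)
    (he : ∀ᶠ w in 𝓝 z, p1 (a w) = p1 (b w)) :
    ConstAt (fun w => (t (a w) : ℂ) - t (b w)) z := by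
  have hc : ContinuousAt (fun w => t (a w) - t (b w)) z :=
    ((P267M.t_cont h).continuousAt.comp ha).sub ((P267M.t_cont h).continuousAt.comp hb)
  have hi : ∀ᶠ w in 𝓝 z, ∃ k : ℤ, t (a w) - t (b w) = k := by
    filter_upwards [he] with w hw
    obtain ⟨k, hk⟩ := (h1.fib _ _).1 hw.symm
    rw [← zpow_natCast, ← zpow_mul] at hk
    exact ⟨N * k, by rw [← hk, h.t_gz]; ring⟩
  obtain ⟨k₀, hk₀⟩ := hi.self_of_nhds
  filter_upwards [hi, hc (ball_mem_nhds _ one_pos)] with w hw hw'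
  obtain ⟨k, hk⟩ := hw
  simp only [mem_preimage, mem_ball, Real.dist_eq, hk, hk₀] at hw'
  have h2 : |k - k₀| < 1 := by exact_mod_cast hw'
  have h3 : k = k₀ := by
    have := abs_lt.1 h2
    omega
  have h4 : t (a w) - t (b w) = t (a z) - t (b z) := by rw [hk, hk₀, h3]
  exact_mod_cast h4

theorem HGh_zc {F : Y → Y → ℂ} (h : F ∈ Zc Y) : ∀ p, ∀ᶠ q in 𝓝 p, ConstAt (F p - F q) q := by
  induction h using Submodule.span_induction with
  | mem x hx => exact hx
  | zero => exact fun p => Eventually.of_forall fun q => Eventually.of_forall fun r => by simp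
  | add x y _ _ hx hy =>
    intro p
    filter_upwards [hx p, hy p] with q h1 h2
    filter_upwards [h1, h2] with r h1 h2
    simp only [Pi.sub_apply, Pi.add_apply] at h1 h2 ⊢
    linear_combination h1 + h2
  | smul c x _ hx =>
    intro p
    filter_upwards [hx p] with q h1
    filter_upwards [h1] with r h1
    simp only [Pi.sub_apply, Pi.smul_apply, smul_eq_mul] at h1 ⊢
    linear_combination c * h1

theorem betti_one {τ : Y → Y → ℂ} (h1 : ∀ p, ∀ᶠ q in 𝓝 p, ConstAt (τ p - τ q) q)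
    (h2 : ∀ s : Y → ℂ, ¬ ∀ p, ConstAt (τ p - s) p)
    (h3 : ∀ f : Y → Y → ℂ, (∀ p, ∀ᶠ q in 𝓝 p, ConstAt (f p - f q) q) →
      ∃ (l : ℂ) (s : Y → ℂ), ∀ p, ConstAt (f p - l • τ p - s) p) : firstBetti Y = 1 := by
  let x : Zc Y := ⟨τ, Submodule.subset_span h1⟩
  refine finrank_eq_one_iff'.2 ⟨((Bc Y).submoduleOf (Zc Y)).mkQ x, fun h => ?_, fun w => ?_⟩
  · rw [Submodule.mkQ_apply, Submodule.Quotient.mk_eq_zero] at h
    obtain ⟨s, hs⟩ := DJ0_bc (F := τ) h
    exact h2 s hs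
  · obtain ⟨f, rfl⟩ := ((Bc Y).submoduleOf (Zc Y)).mkQ_surjective w
    obtain ⟨l, s, hs⟩ := h3 f.1 (HGh_zc f.2)
    refine ⟨l, ?_⟩
    rw [← map_smul, eq_comm, Submodule.mkQ_apply, Submodule.mkQ_apply, Submodule.Quotient.eq]
    exact Submodule.subset_span (s := {f : Y → Y → ℂ | ∃ s : Y → ℂ, ∀ p, ConstAt (f p - s) p})
      ⟨s, hs⟩

end Vale.Agent.P267
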