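import Vale.Agent.P267H.HF
import Vale.Agent.P267H.HG

/-! P267, the first Betti number of the finite covers. -/

open scoped Manifold ContDiff Topology
open Filter Metric Set

noncomputable section

namespace Vale.Agent.P267

set_option linter.unusedSectionVars false

variable {X M : Type} [TopologicalSpace X] [ChartedSpace C2 X] [T2Space X] [CompactSpace X]
  [IsManifold 𝓘(ℂ, C2) ω X] [TopologicalSpace M] [ChartedSpace C2 M] [T2Space M]
  [IsManifold 𝓘(ℂ, C2) ω M] [ConnectedSpace M] {π : M → X} {g : M ≃ₜ M} {t : M → ℝ} {N m : ℕ}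
  {L : Fin m → M → M → ℂ} {c : (M → M → ℂ) → Fin m → ℤ}

theorem betti_quot (h : IsCover π g t) (hP : ∀ m : ℕ, 1 ≤ m → H0 id (canon X ^ m) = ⊥)
    (hL : IsLattice g (pull π (canon X)) L c) (hN : 0 < N) {Y : Type} [TopologicalSpace Y]
    [ChartedSpace C2 Y] {p1 : M → Y} (h1 : IsCyclic p1 (g ^ N)) : firstBetti Y = 1 := by
  obtain ⟨l, hl⟩ := h1.lifts
  have hc : Continuous p1 := h1.loc.contMDiff.continuous
  have hG : ∀ p, p1 ((g ^ N) p) = p1 p := fun p => ((h1.fib _ _).2 ⟨1, by rw [zpow_one]⟩).symm
  refine betti_one (τ := fun y z => (t (l y z) : ℂ)) (fun y => ?_) (fun s hs => ?_) fun f hf => ?_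
  · filter_upwards [(hl y).eventually_nhds] with z hz
    refine h.lift_const h1 hz.self_of_nhds.2 (hl z).self_of_nhds.2 ?_
    filter_upwards [hz, hl z] with w a1 a2
    rw [a1.1, a2.1]
  · refine h.no_tau hN (φ := fun p => (s (p1 p)).re) (fun p => by simp only [hG]) fun p => ?_
    have ht := hc.tendsto p
    have e := h.lift_const h1 (a := fun q => l (p1 p) (p1 q)) (b := id) (z := p)
      (ContinuousAt.comp (hl _).self_of_nhds.2 hc.continuousAt) continuousAt_id
      ((ht.eventually (hl _)).mono fun q hq => hq.1)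
    refine ⟨fun _ => s (p1 p) - t p, holAt_const _, ?_⟩
    filter_upwards [e, ht.eventually (hs (p1 p))] with q a1 a2
    have a3 := congrArg Complex.re a1
    have a4 := congrArg Complex.re a2
    simp only [Pi.sub_apply, Complex.sub_re, Complex.ofReal_re, id] at a3 a4 ⊢
    linarith
  · obtain ⟨μ, S, hS, he⟩ := h.zc_per hP hL hN (f := pull p1 f) (fun p => by
      filter_upwards [(hc.tendsto p).eventually (hf (p1 p))] with q hq
      exact (hc.tendsto q).eventually hq) fun p q => by simp only [pull, hG]
    have hS' : ∀ p q, p1 p = p1 q → S p = S q := fun p q hpq => by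
      obtain ⟨k, rfl⟩ := (h1.fib p q).1 hpq
      clear hpq
      induction k using Int.induction_on generalizing p with
      | zero => rfl
      | succ k ih =>
        rw [zpow_add_one]
        exact (hS p).symm.trans (ih _)
      | pred k ih =>
        rw [zpow_sub_one]
        refine Eq.trans ?_ (ih ((g ^ N)⁻¹ p))
        rw [← hS ((g ^ N)⁻¹ p)]
        exact congrArg S ((g ^ N).apply_symm_apply p).symm
    refine ⟨μ, fun y => S (l y y), fun y => ?_⟩
    have a0 := (hl y).self_of_nhds
    filter_upwards [hl y, a0.2.eventually (he (l y y))] with z a1 a2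
    simp only [Pi.sub_apply, Pi.smul_apply, smul_eq_mul, pull, tauC, a0.1, a1.1] at a2 ⊢
    rw [hS' (l z z) (l y z) ((hl z).self_of_nhds.1.trans a1.1.symm)]
    linear_combination a2

end Vale.Agent.P267
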