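import Vale.Agent.P267H.HC

/-! P267, the first Betti number of the finite covers: twisted canonical sections. -/

open scoped Manifold ContDiff Topology
open Filter Metric Set

noncomputable section

namespace Vale.Agent.P267

set_option linter.unusedSectionVars false

variable {X M : Type} [TopologicalSpace X] [ChartedSpace C2 X] [T2Space X] [CompactSpace X]
  [IsManifold 𝓘(ℂ, C2) ω X] [TopologicalSpace M] [ChartedSpace C2 M] [T2Space M]
  [IsManifold 𝓘(ℂ, C2) ω M] [ConnectedSpace M] {π : M → X} {g : M ≃ₜ M} {t : M → ℝ} {N m : ℕ}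
  {L : Fin m → M → M → ℂ} {c : (M → M → ℂ) → Fin m → ℤ}

theorem IsCover.hol_down (h : IsCover π g t) {f : X → ℂ} {p : M} (hf : HolAt (f ∘ π) p) :
    HolAt f (π p) := by
  have hl := h.loc p
  have e : hl.localInverse (π p) = p := hl.localInverse_left_inv hl.localInverse_mem_target
  have h1 : ContMDiffAt 𝓘(ℂ, C2) 𝓘(ℂ, ℂ) ω ((f ∘ π) ∘ hl.localInverse) (π p) :=
    ContMDiffAt.comp_of_eq (holAt_iff_contMDiffAt.1 hf) hl.localInverse_contMDiffAt e
  refine (holAt_iff_contMDiffAt.2 h1).congr ?_
  filter_upwards [hl.localInverse_eventuallyEq_right] with y hy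
  exact congrArg f hy

theorem HKh_inv {S : M → ℂ} (hS : ∀ q, S (g q) = S q) (k : ℤ) (q : M) : S ((g ^ k) q) = S q := by
  induction k using Int.induction_on generalizing q with
  | zero => simp
  | succ k ih => rw [zpow_add_one, Homeomorph.mul_apply, ih, hS]
  | pred k ih =>
    have e := hS (g⁻¹ q)
    rw [← Homeomorph.mul_apply, mul_inv_cancel, Homeomorph.one_apply] at e
    rw [zpow_sub_one, Homeomorph.mul_apply, ih, e]

theorem IsCover.h0_canon (h : IsCover π g t) (hP : ∀ m : ℕ, 1 ≤ m → H0 id (canon X ^ m) = ⊥)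
    (hN : 0 < N) {a : ℂ} (ha : Complex.exp a ^ N = 1) :
    H0 g (pull π (canon X) / flat t a) = ⊥ := by
  refine (Submodule.eq_bot_iff _).2 fun s hs => ?_
  obtain ⟨h1, h2⟩ := H0_mem.1 hs
  obtain ⟨r, hr⟩ : ∃ r : M → ℂ, r = fun q => Complex.exp (-(a * t q)) * s q := ⟨_, rfl⟩
  have h3 : ∀ p, HolAt (pull π (canon X) p * r) p := fun p => by
    refine ((h2 p).smul (Complex.exp (-(a * t p)))).congr (Eventually.of_forall fun q => ?_)
    simp only [hr, Pi.smul_apply, Pi.mul_apply, Pi.div_apply, flat, tauC, smul_eq_mul, mul_sub,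
      Complex.exp_sub, Complex.exp_neg]
    field_simp
  have h4 : ∀ q, r (g q) ^ N = r q ^ N := fun q => by
    have e : s (g q) = s q := congrFun h1 q
    have e2 : r (g q) = (Complex.exp a)⁻¹ * r q := by
      simp only [hr, e, h.shift, Complex.ofReal_add, Complex.ofReal_one, mul_add, mul_one,
        Complex.exp_add, Complex.exp_neg]
      ring
    rw [e2, mul_pow, inv_pow, ha, inv_one, one_mul]
  have h5 : ∀ q, r (Function.surjInv h.surj (π q)) ^ N = r q ^ N := fun q => by
    obtain ⟨k, hk⟩ := (h.fib _ q).1 (Function.surjInv_eq h.surj (π q))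
    exact (HKh_inv (S := fun q => r q ^ N) h4 k _).symm.trans (by rw [hk])
  have h6 : (fun x => r (Function.surjInv h.surj x) ^ N) ∈ H0 id (canon X ^ N) := by
    refine Submodule.subset_span ⟨rfl, fun x => ?_⟩
    obtain ⟨p, rfl⟩ := h.surj x
    refine h.hol_down (((h3 p).pow N).congr (Eventually.of_forall fun q => ?_))
    simp only [Function.comp_apply, Pi.mul_apply, Pi.pow_apply, h5, mul_pow, pull]
  rw [hP N hN, Submodule.mem_bot] at h6
  funext q
  have h7 : r q ^ N = 0 := (h5 q).symm.trans (congrFun h6 (π q))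
  have h8 := pow_eq_zero_iff hN.ne' |>.1 h7
  rw [hr] at h8
  exact (mul_eq_zero.1 h8).resolve_left (Complex.exp_ne_zero _)

end Vale.Agent.P267
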