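import Vale.Agent.P267H.HB
import Vale.Agent.P267H.HK

/-! P267, the first Betti number of the finite covers: cocycles on the base. -/

open scoped Manifold ContDiff Topology
open Filter Metric Set

noncomputable section

namespace Vale.Agent.P267

set_option linter.unusedSectionVars false

variable {X M : Type} [TopologicalSpace X] [ChartedSpace C2 X] [T2Space X] [CompactSpace X]
  [IsManifold 𝓘(ℂ, C2) ω X] [TopologicalSpace M] [ChartedSpace C2 M] [T2Space M]
  [IsManifold 𝓘(ℂ, C2) ω M] [ConnectedSpace M] {π : M → X} {g : M ≃ₜ M} {t : M → ℝ} {N m : ℕ}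
  {L : Fin m → M → M → ℂ} {c : (M → M → ℂ) → Fin m → ℤ}

theorem B1_mem {G : M → M} {u f : M → M → ℂ} (hf : f ∈ B1 G u) :
    ∃ s : M → ℂ, s ∘ G = s ∧ ∀ p, HolAt (u p * (f p - s)) p := by
  induction hf using Submodule.span_induction with
  | mem x hx => exact hx
  | zero =>
    refine ⟨0, rfl, fun p => holAt_zero.congr (Eventually.of_forall fun q => ?_)⟩
    simp
  | add x y _ _ hx hy =>
    obtain ⟨s, h1, h2⟩ := hx
    obtain ⟨s', h3, h4⟩ := hy
    refine ⟨s + s', funext fun q => congrArg₂ (· + ·) (congrFun h1 q) (congrFun h3 q), fun p =>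
      ((h2 p).add (h4 p)).congr (Eventually.of_forall fun q => ?_)⟩
    simp only [Pi.add_apply, Pi.mul_apply, Pi.sub_apply]
    ring
  | smul a x _ hx =>
    obtain ⟨s, h1, h2⟩ := hx
    refine ⟨a • s, funext fun q => congrArg (a • ·) (congrFun h1 q), fun p =>
      ((h2 p).smul a).congr (Eventually.of_forall fun q => ?_)⟩
    simp only [Pi.smul_apply, Pi.mul_apply, Pi.sub_apply, smul_eq_mul]
    ring

theorem HDh_one (t : M → ℝ) (p : M) (F : M → ℂ) : flat t 0 p * F = F := by
  funext q
  simp [flat]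

/-- Eigen-cocycles for a nontrivial root of unity are coboundaries. -/
theorem IsCover.z1_flat (h : IsCover π g t) (hP : ∀ m : ℕ, 1 ≤ m → H0 id (canon X ^ m) = ⊥)
    (hL : IsLattice g (pull π (canon X)) L c) (hN : 0 < N) {a : ℂ} (ha : Complex.exp a ^ N = 1)
    (h1 : Complex.exp a ≠ 1) {f : M → M → ℂ} (hf : ∀ p, ∀ᶠ q in 𝓝 p, HolAt (f p - f q) q)
    (hg : ∀ p q, f (g p) (g q) = Complex.exp a * f p q) :
    ∃ S : M → ℂ, (∀ p, S ((g ^ N) p) = S p) ∧ ∀ p, HolAt (f p - S) p := by
  have hz : (fun p q => Complex.exp (-a * t q) * f p q) ∈ Z1 g (flat t a) := by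
    refine Submodule.subset_span ⟨funext fun p => funext fun q => ?_, fun p => ?_⟩
    · show Complex.exp (-a * t (g q)) * f (g p) (g q) = _
      rw [hg, h.shift, ← mul_assoc, ← Complex.exp_add]
      push_cast
      ring_nf
    · filter_upwards [hf p] with q hq
      refine (hq.smul (Complex.exp (-a * t q))).congr (Eventually.of_forall fun x => ?_)
      simp only [Pi.smul_apply, Pi.mul_apply, Pi.sub_apply, smul_eq_mul, flat, tauC]
      rw [← mul_sub, ← mul_assoc, ← Complex.exp_add]
      ring_nf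
  obtain ⟨hfd, he⟩ := h.flat_euler hL a
  rw [h.h0_flat hN ha h1, h.h0_canon hP hN ha, finrank_bot] at he
  have h0 : Module.finrank ℂ (H1 g (flat t a)) = 0 := by omega
  have : Subsingleton (H1 g (flat t a)) := Module.finrank_zero_iff.1 h0
  have hb := (Submodule.Quotient.mk_eq_zero ((B1 g (flat t a)).submoduleOf (Z1 g (flat t a)))).1
    (Subsingleton.elim (Submodule.Quotient.mk ⟨_, hz⟩ : H1 g (flat t a)) 0)
  obtain ⟨s, h2, h3⟩ := B1_mem (f := fun p q => Complex.exp (-a * t q) * f p q) hb
  have h4 : ∀ (n : ℕ) p, Complex.exp (a * t ((g ^ n) p)) * s ((g ^ n) p) =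
      Complex.exp a ^ n * (Complex.exp (a * t p) * s p) := fun n p => by
    induction n with
    | zero => simp
    | succ n ih =>
      have e : (g ^ (n + 1)) p = g ((g ^ n) p) := by
        rw [pow_succ']
        rfl
      have e2 : s (g ((g ^ n) p)) = s ((g ^ n) p) := congrFun h2 _
      rw [e, e2, h.shift, pow_succ', mul_assoc, ← ih, ← mul_assoc, ← Complex.exp_add]
      push_cast
      ring_nf
  refine ⟨fun x => Complex.exp (a * t x) * s x, fun p => ?_, fun p =>
    ((h3 p).smul (Complex.exp (a * t p))).congr (Eventually.of_forall fun x => ?_)⟩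
  · exact (h4 N p).trans (by rw [ha, one_mul])
  · simp only [Pi.smul_apply, Pi.mul_apply, Pi.sub_apply, smul_eq_mul, flat, tauC]
    have e1 : Complex.exp (a * t p) * Complex.exp (a * (t x - t p)) = Complex.exp (a * t x) := by
      rw [← Complex.exp_add]
      ring_nf
    have e2 : Complex.exp (a * t x) * Complex.exp (-a * t x) = 1 := by
      rw [← Complex.exp_add]
      simp
    rw [← mul_assoc, e1, mul_sub, ← mul_assoc, e2, one_mul]

/-- Invariant cocycles are multiples of the cocycle of the height function. -/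
theorem IsCover.z1_one (h : IsCover π g t) (hP : ∀ m : ℕ, 1 ≤ m → H0 id (canon X ^ m) = ⊥)
    (hL : IsLattice g (pull π (canon X)) L c) {f : M → M → ℂ}
    (hf : ∀ p, ∀ᶠ q in 𝓝 p, HolAt (f p - f q) q) (hg : ∀ p q, f (g p) (g q) = f p q) :
    ∃ (l : ℂ) (S : M → ℂ), (∀ p, S (g p) = S p) ∧ ∀ p, HolAt (f p - l • tauC t p - S) p := by
  have hz : f ∈ Z1 g (flat t 0) :=
    Submodule.subset_span ⟨funext fun p => funext fun q => hg p q, fun p =>
      (hf p).mono fun q hq => by rwa [HDh_one]⟩
  have hτ : tauC t ∈ Z1 g (flat t 0) := by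
    refine Submodule.subset_span ⟨funext fun p => funext fun q => ?_, fun p =>
      Eventually.of_forall fun q => ?_⟩
    · simp only [pull, tauC, h.shift]
      push_cast
      ring
    · rw [HDh_one]
      refine (holAt_const ((t q : ℂ) - t p)).congr (Eventually.of_forall fun x => ?_)
      simp only [Pi.sub_apply, tauC]
      ring
  obtain ⟨-, he⟩ := h.flat_euler hL 0
  rw [h.h0_one, h.h0_canon hP one_pos (by simp), finrank_bot] at he
  have h1 : Module.finrank ℂ (H1 g (flat t 0)) = 1 := by omega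
  have hne : (Submodule.Quotient.mk ⟨_, hτ⟩ : H1 g (flat t 0)) ≠ 0 := fun h0 => by
    have hb := (Submodule.Quotient.mk_eq_zero
      ((B1 g (flat t 0)).submoduleOf (Z1 g (flat t 0)))).1 h0
    obtain ⟨s, h2, h3⟩ := B1_mem (G := g) (u := flat t 0) (f := tauC t) hb
    simp only [HDh_one] at h3
    refine h.no_tau one_pos (φ := fun q => (s q).re) (fun p => ?_) fun p =>
      ⟨(fun _ => -(t p : ℂ)) - (tauC t p - s), (holAt_const _).sub (h3 p),
        Eventually.of_forall fun q => ?_⟩
    · rw [pow_one]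
      exact congrArg Complex.re (congrFun h2 p)
    · simp [tauC]
      ring
  obtain ⟨l, hl⟩ := (finrank_eq_one_iff_of_nonzero' _ hne).1 h1 (Submodule.Quotient.mk ⟨f, hz⟩)
  rw [← Submodule.Quotient.mk_smul, eq_comm, Submodule.Quotient.eq] at hl
  obtain ⟨s, h2, h3⟩ := B1_mem (G := g) (u := flat t 0) (f := f - l • tauC t) hl
  simp only [HDh_one] at h3
  exact ⟨l, s, fun p => congrFun h2 p, h3⟩

end Vale.Agent.P267
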