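import Vale.Agent.P267.Stmt5
import Vale.Agent.P267D.Nef
import Vale.Agent.P267D.DJ0
import Vale.Agent.P267M.Base

/-! P267, the first Betti number of the finite covers: definitions. -/

noncomputable section

namespace Vale.Agent.P267

variable {M : Type}

/-- The cocycle of the height function. -/
def tauC (t : M → ℝ) (p q : M) : ℂ := (t q : ℂ) - t p

/-- The flat bundles. -/
def flat (t : M → ℝ) (a : ℂ) (p q : M) : ℂ := Complex.exp (a * tauC t p q)

end Vale.Agent.P267
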