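import Vale.Agent.P267H.Defs
import Vale.Agent.P272.Loc

/-! P267, the first Betti number of the finite covers: maximum principles. -/

open scoped Manifold ContDiff Topology
open Filter Metric Set

noncomputable section

namespace Vale.Agent.P267

set_option linter.unusedSectionVars false

variable {X M : Type} [TopologicalSpace X] [ChartedSpace C2 X] [T2Space X] [CompactSpace X]
  [IsManifold 𝓘(ℂ, C2) ω X] [TopologicalSpace M] [ChartedSpace C2 M] [T2Space M]
  [IsManifold 𝓘(ℂ, C2) ω M] [ConnectedSpace M] {π : M → X} {g : M ≃ₜ M} {t : M → ℝ} {N m : ℕ}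
  {L : Fin m → M → M → ℂ} {c : (M → M → ℂ) → Fin m → ℤ}

theorem HAh_per {Y : Type} {φ : M → Y} (hp : ∀ p, φ ((g ^ N) p) = φ p) (k : ℤ) (p : M) :
    φ ((g ^ (N * k : ℤ)) p) = φ p := by
  rw [zpow_mul, zpow_natCast]
  induction k using Int.induction_on generalizing p with
  | zero => rfl
  | succ k ih => rw [zpow_add_one, Homeomorph.mul_apply, ih, hp]
  | pred k ih =>
    rw [zpow_sub_one, Homeomorph.mul_apply, ih, ← hp, ← Homeomorph.mul_apply, mul_inv_cancel,
      Homeomorph.one_apply]

theorem HAh_lev {T : C2 → ℝ} {G : C2 → ℂ} {z : C2} (hT : ContDiffAt ℝ ∞ T z)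
    (hG : AnalyticAt ℂ G z) (v : C2) : lev (fun w => T w + (G w).re) z v = lev T z v := by
  have h1 : ContDiffAt ℝ ∞ (fun w => (G w).re) z :=
    Complex.reCLM.contDiff.contDiffAt.comp z (hG.contDiffAt.restrict_scalars ℝ)
  have h2 := P271A.Lev_log_normSq (ξ := v) (hG.div_const (c := 2)).cexp' (Complex.exp_ne_zero _)
  have e : (fun w => Real.log (‖Complex.exp (G w / 2)‖ ^ 2)) = fun w => (G w).re := by
    funext w
    rw [Complex.norm_exp, Real.log_pow, Real.log_exp, Complex.div_ofNat_re]
    push_cast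
    ring
  rw [e] at h2
  rw [lev_eq (hT.add h1), lev_eq hT, P271A.Lev_add hT h1, h2, add_zero]

theorem IsCover.per_max (h : IsCover π g t) (hN : 0 < N) {φ : M → ℝ} (hc : Continuous φ)
    (hp : ∀ p, φ ((g ^ N) p) = φ p) : ∃ p, ∀ q, φ q ≤ φ p := by
  have hN' : (0 : ℝ) < N := Nat.cast_pos.2 hN
  have h1 : ∀ q, (g ^ (N * -⌊t q / N⌋ : ℤ)) q ∈ t ⁻¹' Icc 0 N := fun q => by
    have a := (le_div_iff₀ hN').1 (Int.floor_le (t q / N))
    have b := (div_lt_iff₀ hN').1 (Int.lt_floor_add_one (t q / N))
    rw [mem_preimage, h.t_gz]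
    push_cast
    constructor <;> linarith
  obtain ⟨p, -, h2⟩ := (P267M.t_proper h 0 N).exists_isMaxOn
    ⟨_, h1 (Classical.arbitrary M)⟩ hc.continuousOn
  exact ⟨p, fun q => (HAh_per hp _ q).symm.trans_le (h2 (h1 q))⟩

/-- A periodic function that is locally the real part of a holomorphic function. -/
theorem IsCover.per_const (h : IsCover π g t) (hN : 0 < N) {φ : M → ℝ}
    (hp : ∀ p, φ ((g ^ N) p) = φ p) {H : M → M → ℂ} (hH : ∀ p, HolAt (H p) p)
    (he : ∀ p, ∀ᶠ q in 𝓝 p, φ q = (H p q).re) (p : M) : ConstAt (H p) p := by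
  have hc : Continuous φ := continuous_iff_continuousAt.2 fun y =>
    (Complex.continuous_re.continuousAt.comp (hH y).continuousAt).congr (EventuallyEq.symm (he y))
  obtain ⟨x₀, h0⟩ := h.per_max hN hc hp
  have key : ∀ y, φ y = φ x₀ → ConstAt (H y) y := fun y hy => by
    have a := mem_chart_source C2 y
    have h1 := const_of_max (hH y) (by
      filter_upwards [((chartAt C2 y).tendsto_symm a).eventually (he y)] with z h2
      rw [Function.comp_apply, Function.comp_apply, ← h2, (chartAt C2 y).left_inv a,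
        ← (he y).self_of_nhds, hy]
      exact h0 _)
    filter_upwards [((chartAt C2 y).continuousAt a).tendsto.eventually h1,
      (chartAt C2 y).open_source.mem_nhds a] with q h2 h3
    rwa [Function.comp_apply, Function.comp_apply, (chartAt C2 y).left_inv a,
      (chartAt C2 y).left_inv h3] at h2
  have hcl : IsClopen {y | φ y = φ x₀} := by
    refine ⟨isClosed_eq hc continuous_const, isOpen_iff_mem_nhds.2 fun y hy => ?_⟩
    filter_upwards [he y, key y hy] with z h1 h2
    have h3 : φ y = φ x₀ := hy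
    show φ z = φ x₀
    rw [h1, h2, ← (he y).self_of_nhds, h3]
  have h1 : p ∈ {y | φ y = φ x₀} := by
    rw [hcl.eq_univ ⟨x₀, rfl⟩]
    exact mem_univ p
  exact key p h1

/-- Periodic holomorphic functions are constant. -/
theorem IsCover.hol_const (h : IsCover π g t) (hN : 0 < N) {s : M → ℂ}
    (hp : ∀ p, s ((g ^ N) p) = s p) (hs : ∀ p, HolAt s p) (p q : M) : s p = s q :=
  ((IsLocallyConstant.iff_eventually_eq s).2 fun x =>
    h.per_const hN (φ := fun y => (s y).re) (fun y => congrArg _ (hp y)) (H := fun _ => s) hs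
      (fun _ => Eventually.of_forall fun _ => rfl) x).apply_eq_of_preconnectedSpace p q

/-- The height function is not pluriharmonic up to a periodic function. -/
theorem IsCover.no_tau (h : IsCover π g t) (hN : 0 < N) {φ : M → ℝ}
    (hp : ∀ p, φ ((g ^ N) p) = φ p)
    (he : ∀ p, ∃ H : M → ℂ, HolAt H p ∧ ∀ᶠ q in 𝓝 p, φ q = t q + (H q).re) : False := by
  choose H hH he using he
  have hc : Continuous φ := continuous_iff_continuousAt.2 fun y =>
    ((P267M.t_cont h).continuousAt.add (Complex.continuous_re.continuousAt.comp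
      (hH y).continuousAt)).congr (EventuallyEq.symm (he y))
  obtain ⟨p, h0⟩ := h.per_max hN hc hp
  obtain ⟨v, hv⟩ := h.drift p
  have a := mem_chart_source C2 p
  have hT : ContDiffAt ℝ ∞ (t ∘ (chartAt C2 p).symm) (chartAt C2 p p) :=
    Complex.reCLM.contDiff.contDiffAt.comp _ (h.smooth p).self_of_nhds
  have h1 : ContDiffAt ℝ ∞ (fun w => (t ∘ (chartAt C2 p).symm) w +
      ((H p ∘ (chartAt C2 p).symm) w).re) (chartAt C2 p p) :=
    hT.add (Complex.reCLM.contDiff.contDiffAt.comp _
      ((AnalyticAt.contDiffAt (hH p)).restrict_scalars ℝ))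
  have h2 : IsLocalMax (fun w => (t ∘ (chartAt C2 p).symm) w +
      ((H p ∘ (chartAt C2 p).symm) w).re) (chartAt C2 p p) := by
    filter_upwards [((chartAt C2 p).tendsto_symm a).eventually (he p)] with z h2
    simp only [Function.comp_apply]
    rw [← h2, (chartAt C2 p).left_inv a, ← (he p).self_of_nhds]
    exact h0 _
  have h3 := add_nonpos (P272.Loc_max h1 h2 v) (P272.Loc_max h1 h2 (Complex.I • v))
  exact not_lt.2 ((HAh_lev hT (hH p) v).symm.trans_le h3) hv

end Vale.Agent.P267
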