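import Vale.Agent.P267H.Defs

/-! P267, the first Betti number of the finite covers: flat bundles. -/

open scoped Manifold ContDiff Topology
open Filter Metric Set

noncomputable section

namespace Vale.Agent.P267

set_option linter.unusedSectionVars false

variable {X M : Type} [TopologicalSpace X] [ChartedSpace C2 X] [T2Space X] [CompactSpace X]
  [IsManifold 𝓘(ℂ, C2) ω X] [TopologicalSpace M] [ChartedSpace C2 M] [T2Space M]
  [IsManifold 𝓘(ℂ, C2) ω M] [ConnectedSpace M] {π : M → X} {g : M ≃ₜ M} {t : M → ℝ} {N m : ℕ}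
  {L : Fin m → M → M → ℂ} {c : (M → M → ℂ) → Fin m → ℤ}

theorem HBh_div (t : M → ℝ) (a : ℂ) (p q : M) :
    flat t a p / flat t a q = fun _ => Complex.exp (a * (t q - t p)) := by
  funext x
  simp only [flat, tauC, Pi.div_apply]
  rw [← Complex.exp_sub]
  congr 1
  ring

theorem flat_bundle (t : M → ℝ) (a : ℂ) : IsBundle HolAt (flat t a) := fun p =>
  Eventually.of_forall fun q => ⟨Complex.exp_ne_zero _, by
    rw [HBh_div]
    exact holAt_const _⟩

theorem IsCover.tau_pull (h : IsCover π g t) (k : ℤ) :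
    pull (g ^ k : M ≃ₜ M) (tauC t) = tauC t := by
  funext p q
  simp only [pull, tauC, h.t_gz]
  push_cast
  ring

theorem IsCover.flat_pull (h : IsCover π g t) (a : ℂ) : pull g (flat t a) = flat t a := by
  funext p q
  simp only [pull, flat, tauC, h.shift]
  push_cast
  congr 2
  ring

theorem HBh_in (P : OpenPartialHomeomorph M C2) :
    inChart P (fun _ => (0 : C2 →L[ℝ] ℂ)) = fun _ => 0 := by
  funext z
  exact ContinuousLinearMap.zero_comp _

theorem HBh_conn (G : M → M) (t : M → ℝ) (a : ℂ) :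
    IsConnection G (flat t a) fun _ _ => 0 := by
  refine ⟨fun p v => Eventually.of_forall fun z => ?_, fun p => Eventually.of_forall fun q =>
    Eventually.of_forall fun x => ?_, fun p => Eventually.of_forall fun x =>
      (ContinuousLinearMap.zero_comp _).symm⟩
  · rw [HBh_in]
    exact contDiffAt_const
  · have e : dAt (flat t a p / flat t a q) x = 0 := by
      rw [HBh_div]
      exact fderiv_const_apply _
    rw [e, sub_self]
    ext v
    simp

theorem HBh_curv (P : OpenPartialHomeomorph M C2) (z : C2) :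
    curv P (fun _ _ => (0 : C2 →L[ℝ] ℂ)) z = fun _ _ => 0 := by
  funext a b
  rw [curv, HBh_in]
  simp [extD]

/-- Riemann-Roch for flat bundles. -/
theorem IsCover.flat_euler (h : IsCover π g t) (hL : IsLattice g (pull π (canon X)) L c)
    (a : ℂ) : Euler g (flat t a) (pull π (canon X)) 0 := by
  have h1 : ∃ (n : ℕ) (P : Fin n → OpenPartialHomeomorph M C2) (ψ : Fin n → M → ℝ),
      IsPartition g P ψ := by
    obtain ⟨C, rfl, rfl⟩ := h.nef_cov
    obtain ⟨n, P, ψ, hP, -⟩ := C.partition one_pos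
    rw [pow_one] at hP
    exact ⟨n, P, ψ, hP⟩
  obtain ⟨n, P, ψ, hP⟩ := h1
  have hb := LT5_sm (flat_bundle t a)
  have h2 := hL.pair _ _ _ _ hb (h.flat_pull a) hb (h.flat_pull a) (HBh_conn g t a)
    (HBh_conn g t a) n P ψ hP
  have h3 : pairing P ψ (fun _ _ => (0 : C2 →L[ℝ] ℂ)) (fun _ _ => 0) = 0 := by
    simp [pairing, HBh_curv, wedge]
  rw [h3, eq_comm, neg_eq_zero, Int.cast_eq_zero,
    Finset.sum_eq_zero_iff_of_nonneg fun j _ => mul_self_nonneg _] at h2
  have h4 : ∀ j, c (flat t a) j = 0 := fun j => mul_self_eq_zero.1 (h2 j (Finset.mem_univ j))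
  have h5 := hL.rr _ (flat_bundle t a) (h.flat_pull a)
  simpa [h4] using h5

end Vale.Agent.P267
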