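import Vale.Agent.P267H.HA

/-! P267, the first Betti number of the finite covers: sections of flat bundles. -/

open scoped Manifold ContDiff Topology
open Filter Metric Set

noncomputable section

namespace Vale.Agent.P267

set_option linter.unusedSectionVars false

variable {X M : Type} [TopologicalSpace X] [ChartedSpace C2 X] [T2Space X] [CompactSpace X]
  [IsManifold 𝓘(ℂ, C2) ω X] [TopologicalSpace M] [ChartedSpace C2 M] [T2Space M]
  [IsManifold 𝓘(ℂ, C2) ω M] [ConnectedSpace M] {π : M → X} {g : M ≃ₜ M} {t : M → ℝ} {N m : ℕ}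
  {L : Fin m → M → M → ℂ} {c : (M → M → ℂ) → Fin m → ℤ}

theorem H0_mem {G : M → M} {u : M → M → ℂ} {s : M → ℂ} :
    s ∈ H0 G u ↔ s ∘ G = s ∧ ∀ p, HolAt (u p * s) p := by
  refine ⟨fun hs => ?_, fun hs => Submodule.subset_span hs⟩
  induction hs using Submodule.span_induction with
  | mem x hx => exact hx
  | zero => exact ⟨rfl, fun p => by rw [mul_zero]; exact holAt_zero⟩
  | add x y _ _ hx hy =>
    refine ⟨funext fun q => ?_, fun p => ?_⟩
    · have h1 := congrFun hx.1 q
      have h2 := congrFun hy.1 q
      simp only [Function.comp_apply, Pi.add_apply] at h1 h2 ⊢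
      rw [h1, h2]
    · rw [mul_add]
      exact (hx.2 p).add (hy.2 p)
  | smul a x _ hx =>
    refine ⟨funext fun q => ?_, fun p => ?_⟩
    · have h1 := congrFun hx.1 q
      simp only [Function.comp_apply, Pi.smul_apply] at h1 ⊢
      rw [h1]
    · rw [mul_smul_comm]
      exact (hx.2 p).smul a

theorem IsCover.h0_flat (h : IsCover π g t) (hN : 0 < N) {a : ℂ} (ha : Complex.exp a ^ N = 1)
    (h1 : Complex.exp a ≠ 1) : H0 g (flat t a) = ⊥ := by
  rw [Submodule.eq_bot_iff]
  intro s hs
  obtain ⟨hg, hs⟩ := H0_mem.1 hs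
  set S : M → ℂ := fun q => Complex.exp (a * t q) * s q with hS
  have hhol : ∀ p, HolAt S p := fun p => by
    have e : S = Complex.exp (a * t p) • (flat t a p * s) := by
      funext q
      simp only [hS, flat, tauC, Pi.smul_apply, Pi.mul_apply, smul_eq_mul]
      rw [← mul_assoc, ← Complex.exp_add]
      congr 2
      ring
    rw [e]
    exact (hs p).smul _
  have hstep : ∀ p, S (g p) = Complex.exp a * S p := fun p => by
    have h2 := congrFun hg p
    simp only [Function.comp_apply] at h2
    simp only [hS]
    rw [h2, h.shift, ← mul_assoc, ← Complex.exp_add]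
    congr 2
    push_cast
    ring
  have hpow : ∀ (k : ℕ) p, S ((g ^ k) p) = Complex.exp a ^ k * S p := fun k => by
    induction k with
    | zero => intro p; simp
    | succ k ih =>
      intro p
      rw [pow_succ, Homeomorph.mul_apply, ih, hstep]
      ring
  funext p
  have h3 := h.hol_const hN (fun q => by rw [hpow, ha, one_mul]) hhol (g p) p
  rw [hstep] at h3
  have h4 : S p = 0 := by
    by_contra h0
    exact h1 (mul_right_cancel₀ h0 (h3.trans (one_mul _).symm))
  exact (mul_eq_zero.1 h4).resolve_left (Complex.exp_ne_zero _)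

theorem IsCover.h0_one (h : IsCover π g t) : Module.finrank ℂ (H0 g (flat t 0)) = 1 := by
  have e : ∀ p, flat t 0 p = 1 := fun p => by
    funext q
    simp [flat]
  obtain ⟨p0⟩ : Nonempty M := inferInstance
  have e2 : H0 g (flat t 0) = Submodule.span ℂ {(1 : M → ℂ)} := by
    ext s
    rw [H0_mem, Submodule.mem_span_singleton]
    simp only [e, one_mul]
    constructor
    · rintro ⟨hg, hs⟩
      refine ⟨s p0, funext fun q => ?_⟩
      have h2 := h.hol_const (N := 1) one_pos (fun p => by rw [pow_one]; exact congrFun hg p) hs p0 q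
      simpa using h2
    · rintro ⟨a, rfl⟩
      exact ⟨rfl, fun p => holAt_one.smul a⟩
  rw [e2]
  exact finrank_span_singleton one_ne_zero

end Vale.Agent.P267
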