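import Vale.Agent.P267H.HD

/-! P267, the first Betti number of the finite covers: averaging. -/

open scoped Manifold ContDiff Topology
open Filter Metric Set

noncomputable section

namespace Vale.Agent.P267

set_option linter.unusedSectionVars false

variable {X M : Type} [TopologicalSpace X] [ChartedSpace C2 X] [T2Space X] [CompactSpace X]
  [IsManifold 𝓘(ℂ, C2) ω X] [TopologicalSpace M] [ChartedSpace C2 M] [T2Space M]
  [IsManifold 𝓘(ℂ, C2) ω M] [ConnectedSpace M] {π : M → X} {g : M ≃ₜ M} {t : M → ℝ} {N m : ℕ}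
  {L : Fin m → M → M → ℂ} {c : (M → M → ℂ) → Fin m → ℤ}

/-- The averaged cocycle. -/
def HEh_av (g : M ≃ₜ M) (N : ℕ) (w : ℂ) (f : M → M → ℂ) (p q : M) : ℂ :=
  (N : ℂ)⁻¹ * ∑ j ∈ Finset.range N, w ^ j * f ((g ^ j) p) ((g ^ j) q)

theorem HEh_eig {w : ℂ} (hw : w ^ N = 1) (h0 : w ≠ 0) {f : M → M → ℂ}
    (hg : ∀ p q, f ((g ^ N) p) ((g ^ N) q) = f p q) (p q : M) :
    HEh_av g N w f (g p) (g q) = w⁻¹ * HEh_av g N w f p q := by
  have h1 := Finset.sum_range_succ (fun j => w ^ j * f ((g ^ j) p) ((g ^ j) q)) N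
  rw [Finset.sum_range_succ', hw, hg] at h1
  have h2 : ∑ j ∈ Finset.range N, w ^ (j + 1) * f ((g ^ (j + 1)) p) ((g ^ (j + 1)) q) =
      w * ∑ j ∈ Finset.range N, w ^ j * f ((g ^ j) (g p)) ((g ^ j) (g q)) := by
    rw [Finset.mul_sum]
    refine Finset.sum_congr rfl fun j _ => ?_
    rw [pow_succ w, pow_succ g, mul_comm _ w, mul_assoc]
    rfl
  rw [h2] at h1
  have h3 : w ^ 0 * f ((g ^ 0) p) ((g ^ 0) q) = 1 * f p q := by
    rw [pow_zero, pow_zero]
    rfl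
  rw [h3, add_left_inj] at h1
  rw [HEh_av, HEh_av, ← h1]
  field_simp

theorem HEh_sum (hN : 0 < N) {ξ : ℂ} (hξ : IsPrimitiveRoot ξ N) (f : M → M → ℂ) (p q : M) :
    ∑ i ∈ Finset.range N, HEh_av g N (ξ ^ i) f p q = f p q := by
  simp only [HEh_av]
  rw [← Finset.mul_sum, Finset.sum_comm, Finset.sum_eq_single_of_mem 0 (Finset.mem_range.2 hN)]
  · have : (N : ℂ) ≠ 0 := by exact_mod_cast hN.ne'
    simp only [pow_zero, one_mul, Finset.sum_const, Finset.card_range, nsmul_eq_mul]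
    rw [inv_mul_cancel_left₀ this]
    rfl
  · intro j hj h0
    have h1 : ξ ^ j ≠ 1 := hξ.pow_ne_one_of_pos_of_lt h0 (Finset.mem_range.1 hj)
    rw [← Finset.sum_mul]
    simp only [← pow_mul, mul_comm _ j]
    simp only [pow_mul]
    rw [geom_sum_eq h1, ← pow_mul, mul_comm j, pow_mul, hξ.pow_eq_one, one_pow, sub_self,
      zero_div, zero_mul]

theorem HEh_hol (h : IsCover π g t) (j : ℕ) {φ : M → ℂ} {q : M} (hφ : HolAt φ ((g ^ j) q)) :
    HolAt (fun x => φ ((g ^ j) x)) q := by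
  have h1 := P267M.g_hol h j q
  rw [zpow_natCast] at h1
  exact holAt_iff_contMDiffAt.2 ((holAt_iff_contMDiffAt.1 hφ).comp q h1)

theorem HEh_coc (h : IsCover π g t) (w : ℂ) {f : M → M → ℂ}
    (hf : ∀ p, ∀ᶠ q in 𝓝 p, HolAt (f p - f q) q) (p : M) :
    ∀ᶠ q in 𝓝 p, HolAt (HEh_av g N w f p - HEh_av g N w f q) q := by
  have h1 : ∀ j ∈ Finset.range N, ∀ᶠ q in 𝓝 p,
      HolAt (f ((g ^ j) p) - f ((g ^ j) q)) ((g ^ j) q) := fun j _ =>
    ((g ^ j).continuous.tendsto p).eventually (hf _)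
  filter_upwards [(Finset.eventually_all _).2 h1] with q hq
  refine ((HolAt.sum fun j hj => (HEh_hol h j (hq j hj)).smul (w ^ j)).smul (N : ℂ)⁻¹).congr
    (Eventually.of_forall fun x => ?_)
  simp only [HEh_av, Pi.smul_apply, Finset.sum_apply, Pi.sub_apply, smul_eq_mul, mul_sub,
    Finset.sum_sub_distrib]

theorem IsCover.z1_per (h : IsCover π g t) (hP : ∀ m : ℕ, 1 ≤ m → H0 id (canon X ^ m) = ⊥)
    (hL : IsLattice g (pull π (canon X)) L c) (hN : 0 < N) {f : M → M → ℂ}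
    (hf : ∀ p, ∀ᶠ q in 𝓝 p, HolAt (f p - f q) q)
    (hg : ∀ p q, f ((g ^ N) p) ((g ^ N) q) = f p q) :
    ∃ (l : ℂ) (S : M → ℂ), (∀ p, S ((g ^ N) p) = S p) ∧
      ∀ p, HolAt (f p - l • tauC t p - S) p := by
  have hξ := Complex.isPrimitiveRoot_exp N hN.ne'
  generalize Complex.exp (2 * Real.pi * Complex.I / N) = ξ at hξ
  have key : ∀ i : ℕ, ∃ (l : ℂ) (S : M → ℂ), (∀ p, S ((g ^ N) p) = S p) ∧
      ∀ p, HolAt (HEh_av g N (ξ ^ i) f p - l • tauC t p - S) p := fun i => by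
    have h0 : ξ ^ i ≠ 0 := pow_ne_zero _ (hξ.ne_zero hN.ne')
    have h1 : (ξ ^ i) ^ N = 1 := by rw [← pow_mul, mul_comm, pow_mul, hξ.pow_eq_one, one_pow]
    have h2 := HEh_eig h1 h0 hg
    by_cases h3 : (ξ ^ i)⁻¹ = 1
    · obtain ⟨l, S, h4, h5⟩ := h.z1_one hP hL (HEh_coc (N := N) h (ξ ^ i) hf)
        fun p q => by rw [h2, h3, one_mul]
      refine ⟨l, S, fun p => ?_, h5⟩
      generalize N = n
      induction n with
      | zero => rfl
      | succ n ih =>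
        rw [pow_succ', ← ih]
        exact h4 _
    · have e := Complex.exp_log (inv_ne_zero h0)
      obtain ⟨S, h4, h5⟩ := h.z1_flat hP hL hN (a := Complex.log (ξ ^ i)⁻¹)
        (by rw [e, inv_pow, h1, inv_one]) (by rwa [e]) (HEh_coc (N := N) h (ξ ^ i) hf)
        fun p q => by rw [h2, e]
      exact ⟨0, S, h4, fun p => by simpa using h5 p⟩
  choose l S h1 h2 using key
  refine ⟨∑ i ∈ Finset.range N, l i, ∑ i ∈ Finset.range N, S i, fun p => ?_, fun p => ?_⟩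
  · simp only [Finset.sum_apply, h1]
  · refine (HolAt.sum (W := Finset.range N) fun i _ => h2 i p).congr
      (Eventually.of_forall fun x => ?_)
    simp only [Finset.sum_apply, Pi.sub_apply, Pi.smul_apply, smul_eq_mul,
      Finset.sum_sub_distrib, HEh_sum hN hξ, Finset.sum_mul]

end Vale.Agent.P267
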