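import Vale.Agent.P267H.HE

/-! P267, the first Betti number of the finite covers: cocycles of the constant sheaf. -/

open scoped Manifold ContDiff Topology
open Filter Metric Set

noncomputable section

namespace Vale.Agent.P267

set_option linter.unusedSectionVars false

variable {X M : Type} [TopologicalSpace X] [ChartedSpace C2 X] [T2Space X] [CompactSpace X]
  [IsManifold 𝓘(ℂ, C2) ω X] [TopologicalSpace M] [ChartedSpace C2 M] [T2Space M]
  [IsManifold 𝓘(ℂ, C2) ω M] [ConnectedSpace M] {π : M → X} {g : M ≃ₜ M} {t : M → ℝ} {N m : ℕ}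
  {L : Fin m → M → M → ℂ} {c : (M → M → ℂ) → Fin m → ℤ}

theorem HFh_hol {f : M → ℂ} {p : M} (hf : ConstAt f p) : HolAt f p :=
  (holAt_const (f p)).congr (hf.mono fun _ hq => hq.symm)

theorem HFh_tau (h : IsCover π g t) (N : ℕ) (p q : M) :
    tauC t ((g ^ N) p) ((g ^ N) q) = tauC t p q := by
  have h1 := h.t_gz (N : ℤ) p
  have h2 := h.t_gz (N : ℤ) q
  rw [zpow_natCast] at h1 h2
  simp only [tauC, h1, h2]
  push_cast
  ring

theorem HFh_re (a m : ℂ) : ((starRingEnd ℂ) a / m).re = (a / (starRingEnd ℂ) m).re := by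
  rw [← Complex.conj_re ((starRingEnd ℂ) a / m), map_div₀, Complex.conj_conj]

theorem IsCover.zc_per (h : IsCover π g t) (hP : ∀ m : ℕ, 1 ≤ m → H0 id (canon X ^ m) = ⊥)
    (hL : IsLattice g (pull π (canon X)) L c) (hN : 0 < N) {f : M → M → ℂ}
    (hf : ∀ p, ∀ᶠ q in 𝓝 p, ConstAt (f p - f q) q)
    (hg : ∀ p q, f ((g ^ N) p) ((g ^ N) q) = f p q) :
    ∃ (l : ℂ) (S : M → ℂ), (∀ p, S ((g ^ N) p) = S p) ∧
      ∀ p, ConstAt (f p - l • tauC t p - S) p := by
  obtain ⟨l, S, hS, hH⟩ := h.z1_per hP hL hN (f := f)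
    (fun p => (hf p).mono fun q hq => HFh_hol hq) hg
  refine ⟨l, S, hS, ?_⟩
  obtain ⟨H, hHd⟩ : ∃ H : M → M → ℂ, ∀ p, H p = f p - l • tauC t p - S := ⟨_, fun _ => rfl⟩
  have hH' : ∀ p, HolAt (H p) p := fun p => by rw [hHd]; exact hH p
  have hv : ∀ p q, H p q = f p q - l * tauC t p q - S q := fun p q => by rw [hHd]; rfl
  have c1 : ∀ p, ∀ᶠ q in 𝓝 p, HolAt ((fun r => (starRingEnd ℂ) (H p r)) -
      fun r => (starRingEnd ℂ) (H q r)) q := by
    intro p
    filter_upwards [hf p] with q hq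
    apply HFh_hol
    filter_upwards [hq] with r hr
    simp only [Pi.sub_apply] at hr ⊢
    rw [← map_sub, ← map_sub]
    congr 1
    simp only [hv, tauC]
    linear_combination hr
  have c2 : ∀ p q, (starRingEnd ℂ) (H ((g ^ N) p) ((g ^ N) q)) = (starRingEnd ℂ) (H p q) := by
    intro p q
    rw [hv, hv, hg, HFh_tau h, hS]
  obtain ⟨mu, S1, hS1, hH1⟩ := h.z1_per hP hL hN
    (f := fun p r => (starRingEnd ℂ) (H p r)) c1 c2
  obtain ⟨K, hKd⟩ : ∃ K : M → M → ℂ,
      ∀ p, K p = (fun r => (starRingEnd ℂ) (H p r)) - mu • tauC t p - S1 := ⟨_, fun _ => rfl⟩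
  have hK' : ∀ p, HolAt (K p) p := fun p => by rw [hKd]; exact hH1 p
  have hw : ∀ p q, S1 q = (starRingEnd ℂ) (H p q) - mu * tauC t p q - K p q := fun p q => by
    rw [hKd]
    simp only [Pi.sub_apply, Pi.smul_apply, smul_eq_mul]
    ring
  have hmu : mu = 0 := by
    by_contra hne
    refine h.no_tau hN (φ := fun q => (-S1 q / mu).re) (fun p => by simp only [hS1]) fun p => ?_
    refine ⟨(fun _ => -(t p : ℂ)) + mu⁻¹ • K p - ((starRingEnd ℂ) mu)⁻¹ • H p,
      ((holAt_const _).add ((hK' p).smul _)).sub ((hH' p).smul _), Eventually.of_forall fun q => ?_⟩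
    have e1 : -S1 q / mu = (t q : ℂ) + (-(t p : ℂ) + mu⁻¹ * K p q) -
        (starRingEnd ℂ) (H p q) / mu := by
      rw [hw p q, tauC]
      field_simp
      ring
    show (-S1 q / mu).re = t q + (-(t p : ℂ) + mu⁻¹ * K p q - ((starRingEnd ℂ) mu)⁻¹ * H p q).re
    rw [e1, Complex.sub_re, HFh_re, Complex.add_re, Complex.ofReal_re, Complex.sub_re,
      div_eq_inv_mul]
    ring
  have hw' : ∀ p q, S1 q = (starRingEnd ℂ) (H p q) - K p q := fun p q => by
    rw [hw p q, hmu]
    ring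
  have a1 := h.per_const hN (φ := fun q => (S1 q).re) (fun p => by simp only [hS1])
    (H := fun p => H p - K p) (fun p => (hH' p).sub (hK' p))
    (fun p => Eventually.of_forall fun q => by
      rw [hw' p q]
      simp)
  have a2 := h.per_const hN (φ := fun q => (S1 q).im) (fun p => by simp only [hS1])
    (H := fun p => Complex.I • (H p + K p)) (fun p => ((hH' p).add (hK' p)).smul _)
    (fun p => Eventually.of_forall fun q => by
      rw [hw' p q]
      simp
      ring)
  intro p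
  rw [← hHd]
  filter_upwards [a1 p, a2 p] with q h1 h2
  simp only [Pi.sub_apply, Pi.smul_apply, Pi.add_apply, smul_eq_mul] at h1 h2
  have h3 := mul_left_cancel₀ Complex.I_ne_zero h2
  linear_combination (h1 + h3) / 2

end Vale.Agent.P267
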